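import Mathlib

/-! Definitions for the absence of ballistic transport in the Anderson model. -/

open MeasureTheory Filter Topology Set
open scoped InnerProductSpace

namespace Vale.Agent.P365

/-- Lattice sites. -/
abbrev Site (d : ℕ) : Type := Fin d → ℤ

/-- The Hilbert space of square summable complex functions on the lattice. -/
abbrev L2 (d : ℕ) : Type := lp (fun _ : Site d => ℂ) 2

/-- The unit vector supported at the site `x`. -/
noncomputable def dlt {d : ℕ} (x : Site d) : L2 d := lp.single 2 x (1 : ℂ)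

/-- `H` acts as the Anderson operator with disorder strength `lam` and potential `ω`. -/
def IsAnderson {d : ℕ} (lam : ℝ) (ω : Site d → ℝ) (H : L2 d →L[ℂ] L2 d) : Prop :=
  ∀ (ψ : L2 d) (x : Site d), (H ψ) x =
    (∑ i : Fin d, (ψ (x + Pi.single i 1) + ψ (x - Pi.single i 1))) + ((lam * ω x : ℝ) : ℂ) * ψ x

/-- The uniform law on the interval from -1 to 1. -/
noncomputable def unif : Measure ℝ := ProbabilityTheory.cond volume (Set.Icc (-1 : ℝ) 1)

/-- The law of the potential: independent uniform variables. -/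
noncomputable def PP (d : ℕ) : Measure (Site d → ℝ) := Measure.infinitePi (fun _ => unif)

section General

variable {E : Type} [NormedAddCommGroup E] [InnerProductSpace ℂ E] [CompleteSpace E]

/-- The time evolution `exp (-i t A)`. -/
noncomputable def U (A : E →L[ℂ] E) (t : ℝ) : E →L[ℂ] E :=
  NormedSpace.exp ((-(t : ℂ) * Complex.I) • A)

/-- The rank one operator of the vector `δ`. -/
noncomputable def Pr (δ : E) : E →L[ℂ] E := InnerProductSpace.rankOne ℂ δ δ

/-- Time average of a curve between time `0` and time `t` (also for negative `t`). -/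
noncomputable def iavg (Ξ : ℝ → E) (t : ℝ) : E := (t⁻¹ : ℝ) • ∫ r in (0 : ℝ)..t, Ξ r

/-- Time averaged Heisenberg evolution of `V`, applied to `v`. -/
noncomputable def avg (A V : E →L[ℂ] E) (t : ℝ) (v : E) : E :=
  iavg (fun r => U A (-r) (V (U A r v))) t

/-- `φ` has bounded spectral density for `A`, in the time picture. -/
def IsM (A : E →L[ℂ] E) (φ : E) (K : ℝ) : Prop :=
  ∀ (v : E) (T : ℝ), 0 ≤ T → ∫ r in (-T)..T, ‖⟪v, U A r φ⟫_ℂ‖ ^ 2 ≤ K * ‖v‖ ^ 2

/-- `Q` is the common strong limit of the forward and backward time averages along `t`. -/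
def IsLim (A V : E →L[ℂ] E) (t : ℕ → ℝ) (Q : E →L[ℂ] E) : Prop :=
  ∀ v : E, Tendsto (fun n => avg A V (t n) v) atTop (𝓝 (Q v)) ∧
    Tendsto (fun n => avg A V (-(t n)) v) atTop (𝓝 (Q v))

/-- `ψ` is orthogonal to the cyclic space of `δ`. -/
def Perp (A : E →L[ℂ] E) (δ ψ : E) : Prop := ∀ r : ℝ, ⟪δ, U A r ψ⟫_ℂ = 0

/-- Time reversal antisymmetry of `V` at the vector `δ`. -/
def Anti (A V : E →L[ℂ] E) (δ : E) : Prop :=
  ∀ r₁ r₂ : ℝ, ⟪U A r₁ δ, V (U A r₂ δ)⟫_ℂ = -⟪U A (-r₂) δ, V (U A (-r₁) δ)⟫_ℂ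

end General

/-- Clipping to the interval from -1 to 1. -/
noncomputable def clip (s : ℝ) : ℝ := max (-1) (min 1 s)

/-- Shift of the potential. -/
def sh {d : ℕ} (x : Site d) (ω : Site d → ℝ) : Site d → ℝ := fun y => ω (y + x)

/-- `T x` is the translation by `x`. -/
def IsShift {d : ℕ} (T : Site d → L2 d →L[ℂ] L2 d) : Prop :=
  ∀ (x : Site d) (ψ : L2 d) (y : Site d), (T x ψ) y = ψ (y + x)

/-- `V` is the velocity in direction `i`. -/
def IsVel {d : ℕ} (i : Fin d) (V : L2 d →L[ℂ] L2 d) : Prop :=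
  ∀ (ψ : L2 d) (x : Site d), (V ψ) x =
    Complex.I * (ψ (x + Pi.single i 1) - ψ (x - Pi.single i 1))

/-- The family of Anderson operators with clipped potential. -/
def IsFam {d : ℕ} (lam : ℝ) (H : (Site d → ℝ) → L2 d →L[ℂ] L2 d) : Prop :=
  ∀ ω, IsAnderson lam (fun x => clip (ω x)) (H ω)

/-- Uniformly bounded, strongly continuous, translation covariant families. -/
def Cov {d : ℕ} (T : Site d → L2 d →L[ℂ] L2 d) (A : (Site d → ℝ) → L2 d →L[ℂ] L2 d) : Prop :=
  (∃ M : ℝ, ∀ ω, ‖A ω‖ ≤ M) ∧ (∀ ψ, Continuous (fun ω => A ω ψ)) ∧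
    ∀ x ω ψ, T x (A ω ψ) = A (sh x ω) (T x ψ)

end Vale.Agent.P365
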